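import Mathlib
import Vale.Agent.P237.Contact.Slices

/-!
A symmetric convex body in John position has a contact direction with a large slice functional,
given the one-variable inequality for concave profiles.
-/

namespace Vale.Agent.P237

open MeasureTheory Set Metric Filter
open scoped RealInnerProductSpace Pointwise


/-- The one-variable inequality: a concave profile above the semicircle whose second moment is at
least that of the ball of the same volume has a large first integral. -/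
def ScalarLemma : Prop :=
  ∀ g : ℝ → ℝ, ConcaveOn ℝ (Icc (0 : ℝ) 1) g → AntitoneOn g (Icc (0 : ℝ) 1) →
    (∀ t ∈ Icc (0 : ℝ) 1, Real.sqrt (1 - t ^ 2) ≤ g t) →
    (1 / 5 : ℝ) * (3 / 2 * ∫ t in (0:ℝ)..1, g t ^ 2) ^ (2 / 3 : ℝ) * (∫ t in (0:ℝ)..1, g t ^ 2)
      ≤ (∫ t in (0:ℝ)..1, t ^ 2 * g t ^ 2) →
    3 * Real.pi ^ 2 / 32 * (∫ t in (0:ℝ)..1, g t ^ 2) ≤ (∫ t in (0:ℝ)..1, g t) ^ 2

/-- A symmetric convex body whose maximal inscribed ellipsoid is the unit ball. -/
structure InJohnPosition (K : Set E3) : Prop where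
  compact : IsCompact K
  convex : Convex ℝ K
  symm : ∀ x ∈ K, -x ∈ K
  ball : closedBall 0 1 ⊆ K
  contacts : ∃ (m : ℕ) (c : Fin m → ℝ) (u : Fin m → E3), (∀ i, 0 ≤ c i) ∧ ∑ i, c i = 3 ∧
    (∀ i, ‖u i‖ = 1) ∧ (∀ i, ∀ x ∈ K, |⟪u i, x⟫| ≤ 1) ∧ ∀ v, ∑ i, (c i * ⟪u i, v⟫) • u i = v

theorem exists_basis_first {u : E3} (hu : ‖u‖ = 1) :
    ∃ b : OrthonormalBasis (Fin 3) ℝ E3, b 0 = u := by
  obtain ⟨b, hb⟩ := Orthonormal.exists_orthonormalBasis_extension_of_card_eq (ι := Fin 3) (𝕜 := ℝ)
    (E := E3) (by simp) (v := fun _ => u) (s := {0})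
    ⟨fun i => hu, fun i j hij => absurd (Subsingleton.elim i j) hij⟩
  exact ⟨b, hb 0 rfl⟩

theorem abs_inner_le_of_mem_ball (b : OrthonormalBasis (Fin 3) ℝ E3) {R : ℝ} {x : E3}
    (hx : x ∈ closedBall (0 : E3) R) : |⟪b 0, x⟫| ≤ R := by
  refine (abs_real_inner_le_norm _ _).trans ?_
  rw [b.orthonormal.1, one_mul]
  exact mem_closedBall_zero_iff.1 hx

/-- The sections of a centred ball are discs. -/
theorem sliceArea_closedBall (b : OrthonormalBasis (Fin 3) ℝ E3) {R : ℝ} (hR : 0 ≤ R) (t : ℝ) :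
    sliceArea (closedBall (0 : E3) R) b t
      = (Icc (-R) R).indicator (fun t => Real.pi * (R ^ 2 - t ^ 2)) t := by
  have e : Vale.P254.sl (coords b ⁻¹' closedBall (0 : E3) R) t
      = {y : Fin 2 → ℝ | t ^ 2 + ∑ i, y i ^ 2 ≤ R ^ 2} := by
    ext y
    show coords b (Fin.cons t y) ∈ closedBall (0 : E3) R ↔ _
    rw [mem_closedBall_zero_iff, ← sq_le_sq₀ (norm_nonneg _) hR, norm_coords_sq, Fin.sum_univ_succ]
    simp
  rw [sliceArea, Vale.P254.slVol, e]
  by_cases ht : t ∈ Icc (-R) R
  · rw [indicator_of_mem ht]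
    have h0 : 0 ≤ R ^ 2 - t ^ 2 := by nlinarith [ht.1, ht.2]
    have h := volume_disc (Real.sqrt_nonneg (R ^ 2 - t ^ 2))
    rw [Real.sq_sqrt h0] at h
    rw [← h]
    congr 1
    ext y
    simp only [mem_ofPred_eq]
    constructor <;> intro h' <;> linarith
  · rw [indicator_of_notMem ht]
    have : {y : Fin 2 → ℝ | t ^ 2 + ∑ i, y i ^ 2 ≤ R ^ 2} = ∅ :=
      eq_empty_of_forall_notMem fun y hy => ht <| by
        have : 0 ≤ ∑ i, y i ^ 2 := Finset.sum_nonneg fun i _ => sq_nonneg (y i)
        exact abs_le.1 (abs_le_of_sq_le_sq (by simp only [mem_ofPred_eq] at hy; linarith) hR)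
    rw [this]
    simp

theorem integral_height_ball (b : OrthonormalBasis (Fin 3) ℝ E3) {R : ℝ} (hR : 0 ≤ R) {φ : ℝ → ℝ}
    (hφ : Continuous φ) :
    ∫ z in closedBall (0 : E3) R, φ ⟪b 0, z⟫
      = ∫ t in (-R)..R, φ t * (Real.pi * (R ^ 2 - t ^ 2)) := by
  rw [(integral_height (isCompact_closedBall _ _) b hφ).2,
    intervalIntegral.integral_of_le (by linarith), ← integral_Icc_eq_integral_Ioc,
    ← integral_indicator measurableSet_Icc]
  refine integral_congr_ae (Eventually.of_forall fun t => ?_)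
  simp only [sliceArea_closedBall b hR]
  by_cases ht : t ∈ Icc (-R) R <;> simp [ht]

theorem volume_ball_three {R : ℝ} (hR : 0 ≤ R) :
    volume.real (closedBall (0 : E3) R) = 4 * Real.pi * R ^ 3 / 3 := by
  have h := integral_height_ball (EuclideanSpace.basisFun (Fin 3) ℝ) hR
    (φ := fun _ => 1) continuous_const
  simp only [setIntegral_const, smul_eq_mul, mul_one, one_mul] at h
  rw [h, intervalIntegral.integral_const_mul,
    intervalIntegral.integral_sub intervalIntegrable_const
      ((continuous_pow 2).intervalIntegrable _ _), intervalIntegral.integral_const, integral_pow]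
  simp; ring

theorem moment_ball_three {R : ℝ} (hR : 0 ≤ R) :
    ∫ z in closedBall (0 : E3) R, ‖z‖ ^ 2 = 4 * Real.pi * R ^ 5 / 5 := by
  have key : ∀ i : Fin 3, ∫ z in closedBall (0 : E3) R,
      ⟪EuclideanSpace.basisFun (Fin 3) ℝ i, z⟫ ^ 2 = 4 * Real.pi * R ^ 5 / 15 := by
    intro i
    have hu := (EuclideanSpace.basisFun (Fin 3) ℝ).orthonormal.1 i
    obtain ⟨b, hb⟩ := exists_basis_first hu
    have h := integral_height_ball b hR (φ := fun x => x ^ 2) (continuous_pow 2)
    rw [hb] at h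
    rw [h]
    have e : ∀ t : ℝ, t ^ 2 * (Real.pi * (R ^ 2 - t ^ 2))
        = Real.pi * R ^ 2 * t ^ 2 - Real.pi * t ^ 4 := fun t => by ring
    simp only [e]
    rw [intervalIntegral.integral_sub
      ((continuous_pow 2).const_mul _ |>.intervalIntegrable _ _)
      ((continuous_pow 4).const_mul _ |>.intervalIntegrable _ _),
      intervalIntegral.integral_const_mul, intervalIntegral.integral_const_mul, integral_pow,
      integral_pow]
    push_cast; ring
  have e : ∀ z : E3, ‖z‖ ^ 2 = ∑ i, ⟪EuclideanSpace.basisFun (Fin 3) ℝ i, z⟫ ^ 2 := fun z => by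
    rw [EuclideanSpace.norm_sq_eq]
    simp [EuclideanSpace.inner_single_left, sq_abs]
  simp only [e]
  rw [integral_finsetSum _ fun i _ =>
    ((by fun_prop : Continuous fun z : E3 => ⟪EuclideanSpace.basisFun (Fin 3) ℝ i, z⟫ ^ 2)
      ).continuousOn.integrableOn_compact (isCompact_closedBall _ _)]
  simp only [key]
  simp; ring

/-- The centred ball has the least second moment among sets of its volume. -/
theorem moment_ball_le {K : Set E3} (hK : IsCompact K) {R : ℝ} (hR : 0 ≤ R)
    (hvol : volume.real K = volume.real (closedBall (0 : E3) R)) :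
    ∫ z in closedBall (0 : E3) R, ‖z‖ ^ 2 ≤ ∫ z in K, ‖z‖ ^ 2 := by
  set B := closedBall (0 : E3) R with hB
  have hBc : IsCompact B := isCompact_closedBall _ _
  have hc : Continuous fun z : E3 => ‖z‖ ^ 2 - R ^ 2 := by fun_prop
  have hiK := (hc.continuousOn.integrableOn_compact (μ := volume) hK).integrable_indicator
    hK.measurableSet
  have hiB := (hc.continuousOn.integrableOn_compact (μ := volume) hBc).integrable_indicator
    hBc.measurableSet
  have key : ∫ z in B, (‖z‖ ^ 2 - R ^ 2) ≤ ∫ z in K, (‖z‖ ^ 2 - R ^ 2) := by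
    rw [← integral_indicator hBc.measurableSet, ← integral_indicator hK.measurableSet]
    refine integral_mono hiB hiK fun z => ?_
    by_cases hzB : z ∈ B
    · have hle : ‖z‖ ^ 2 - R ^ 2 ≤ 0 :=
        sub_nonpos.2 (pow_le_pow_left₀ (norm_nonneg z) (mem_closedBall_zero_iff.1 hzB) 2)
      rw [indicator_of_mem hzB]
      by_cases hzK : z ∈ K
      · rw [indicator_of_mem hzK]
      · rw [indicator_of_notMem hzK]; exact hle
    · have hge : 0 ≤ ‖z‖ ^ 2 - R ^ 2 := by
        have : R < ‖z‖ := by simpa [hB, mem_closedBall_zero_iff] using hzB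
        nlinarith
      rw [indicator_of_notMem hzB]
      by_cases hzK : z ∈ K
      · rw [indicator_of_mem hzK]; exact hge
      · rw [indicator_of_notMem hzK]
  have hn : Continuous fun z : E3 => ‖z‖ ^ 2 := by fun_prop
  rw [integral_sub (hn.continuousOn.integrableOn_compact hBc)
      (integrableOn_const hBc.measure_lt_top.ne),
    integral_sub (hn.continuousOn.integrableOn_compact hK)
      (integrableOn_const hK.measure_lt_top.ne),
    setIntegral_const, setIntegral_const, hvol] at key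
  linarith

/-- The profile of `K` in the direction of the first vector of `b`. -/
noncomputable def profile (K : Set E3) (b : OrthonormalBasis (Fin 3) ℝ E3) (t : ℝ) : ℝ :=
  Real.sqrt (sliceArea K b t / Real.pi)

theorem integral_even {F : ℝ → ℝ} (heven : ∀ t, F (-t) = F t) (hout : ∀ t, 1 < |t| → F t = 0) :
    ∫ t, F t = 2 * ∫ t in (0:ℝ)..1, F t := by
  have h : (fun t => F t) = fun t => F |t| := by
    funext t
    rcases abs_choice t with h | h <;> rw [h]
    rw [heven]
  rw [h, integral_comp_abs, intervalIntegral.integral_of_le zero_le_one]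
  congr 1
  rw [setIntegral_eq_of_subset_of_forall_sdiff_eq_zero measurableSet_Ioi Ioc_subset_Ioi_self]
  · refine setIntegral_congr_fun measurableSet_Ioc fun t ht => ?_
    rw [abs_of_pos ht.1]
  · intro t ht
    apply hout
    have : ¬ t ≤ 1 := fun h' => ht.2 ⟨ht.1, h'⟩
    rw [abs_of_pos ht.1]
    linarith

theorem profile_data {K : Set E3} (hJ : InJohnPosition K) {b : OrthonormalBasis (Fin 3) ℝ E3}
    (hb : ∀ x ∈ K, |⟪b 0, x⟫| ≤ 1) :
    ConcaveOn ℝ (Icc (0 : ℝ) 1) (profile K b) ∧ AntitoneOn (profile K b) (Icc (0 : ℝ) 1) ∧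
      (∀ t ∈ Icc (0 : ℝ) 1, Real.sqrt (1 - t ^ 2) ≤ profile K b t) ∧
      volume.real K = 2 * Real.pi * ∫ t in (0:ℝ)..1, profile K b t ^ 2 ∧
      ∫ z in K, ⟪b 0, z⟫ ^ 2 = 2 * Real.pi * ∫ t in (0:ℝ)..1, t ^ 2 * profile K b t ^ 2 ∧
      (∫ t, Real.sqrt (sliceArea K b t)) = 2 * Real.sqrt Real.pi * ∫ t in (0:ℝ)..1, profile K b t := by
  have hsq : ∀ t, sliceArea K b t = Real.pi * profile K b t ^ 2 := fun t => by
    rw [profile, Real.sq_sqrt (div_nonneg (sliceArea_nonneg K b t) Real.pi_nonneg)]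
    field_simp
  have hsqrt : ∀ t, Real.sqrt (sliceArea K b t) = Real.sqrt Real.pi * profile K b t := fun t => by
    rw [profile, ← Real.sqrt_mul Real.pi_nonneg]
    field_simp
  have hconc : ConcaveOn ℝ (Icc (-1 : ℝ) 1) (profile K b) := by
    have h := (concaveOn_sqrt_sliceArea hJ.compact hJ.convex hJ.ball b).smul
      (inv_nonneg.2 (Real.sqrt_nonneg Real.pi))
    have e : profile K b = fun t => (Real.sqrt Real.pi)⁻¹ • Real.sqrt (sliceArea K b t) := by
      funext t
      rw [hsqrt, smul_eq_mul, inv_mul_cancel_left₀ (by positivity)]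
    rw [e]
    exact h
  have heven : ∀ t, sliceArea K b (-t) = sliceArea K b t := sliceArea_neg hJ.symm b
  refine ⟨hconc.subset (Icc_subset_Icc (by norm_num) le_rfl) (convex_Icc _ _), ?_, ?_, ?_, ?_, ?_⟩
  · intro s hs t ht hst
    rcases hst.eq_or_lt with rfl | hlt
    · exact le_rfl
    have htpos : 0 < t := hs.1.trans_lt hlt
    have hmt : profile K b (-t) = profile K b t := by rw [profile, profile, heven]
    have h1 : s / t ≤ 1 := (div_le_one htpos).2 hst
    have h0 : 0 ≤ s / t := div_nonneg hs.1 htpos.le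
    have := hconc.2 (show t ∈ Icc (-1 : ℝ) 1 from ⟨by linarith, ht.2⟩)
      (show -t ∈ Icc (-1 : ℝ) 1 from ⟨by linarith [ht.2], by linarith⟩)
      (show 0 ≤ (1 + s / t) / 2 by linarith) (show 0 ≤ (1 - s / t) / 2 by linarith) (by ring)
    simp only [smul_eq_mul, hmt] at this
    have e : (1 + s / t) / 2 * t + (1 - s / t) / 2 * -t = s := by field_simp; ring
    rw [e] at this
    linarith
  · intro t ht
    refine Real.sqrt_le_sqrt ?_
    rw [le_div_iff₀ Real.pi_pos]
    have := pi_le_sliceArea hJ.compact hJ.ball b (t := t) ⟨by linarith [ht.1], ht.2⟩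
    linarith
  · have h := (integral_height hJ.compact b (φ := fun _ => 1) continuous_const).2
    simp only [setIntegral_const, smul_eq_mul, mul_one, one_mul] at h
    rw [h, integral_even heven fun t ht => sliceArea_eq_zero hb ht]
    simp only [hsq, intervalIntegral.integral_const_mul]
    ring
  · have h := (integral_height hJ.compact b (φ := fun x => x ^ 2) (continuous_pow 2)).2
    rw [h, integral_even (fun t => by rw [heven, neg_sq])
      fun t ht => by rw [sliceArea_eq_zero hb ht, mul_zero]]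
    simp only [hsq, mul_left_comm _ Real.pi, intervalIntegral.integral_const_mul]
    ring
  · rw [integral_even (fun t => by rw [heven]) fun t ht => by simp [sliceArea_eq_zero hb ht]]
    simp only [hsqrt, intervalIntegral.integral_const_mul]
    ring

/-- **The slice estimate.** In John position some contact direction has slice functional at least
that of the ball, given the one-variable inequality. -/
theorem exists_contact_slice (hS : ScalarLemma) {K : Set E3} (hJ : InJohnPosition K) :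
    ∃ b : OrthonormalBasis (Fin 3) ℝ E3, (∀ x ∈ K, |⟪b 0, x⟫| ≤ 1) ∧ b 0 ∈ K ∧
      3 * Real.pi ^ 2 / 16 * volume.real K ≤ (∫ t, Real.sqrt (sliceArea K b t)) ^ 2 := by
  obtain ⟨m, c, u, hc0, hcsum, hu1, huK, hdec⟩ := hJ.contacts
  choose b hb using fun i => exists_basis_first (hu1 i)
  have hbK : ∀ i, ∀ x ∈ K, |⟪b i 0, x⟫| ≤ 1 := fun i => by rw [hb]; exact huK i
  set V := volume.real K with hV
  set R := (3 * V / (4 * Real.pi)) ^ (1 / 3 : ℝ) with hRdef
  have hV0 : 0 ≤ 3 * V / (4 * Real.pi) := by positivity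
  have hR : 0 ≤ R := Real.rpow_nonneg hV0 _
  have hR3 : R ^ 3 = 3 * V / (4 * Real.pi) := by
    rw [hRdef, ← Real.rpow_natCast, ← Real.rpow_mul hV0]
    norm_num
  have hR2 : R ^ 2 = (3 * V / (4 * Real.pi)) ^ (2 / 3 : ℝ) := by
    rw [hRdef, ← Real.rpow_natCast, ← Real.rpow_mul hV0]
    norm_num
  have hmom := moment_ball_le hJ.compact hR (by rw [volume_ball_three hR, hR3, ← hV]; field_simp)
  rw [moment_ball_three hR] at hmom
  have hint : ∀ i, IntegrableOn (fun z => c i * ⟪u i, z⟫ ^ 2) K := fun i =>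
    (by fun_prop : Continuous fun z : E3 => c i * ⟪u i, z⟫ ^ 2).continuousOn.integrableOn_compact
      hJ.compact
  have hnorm : ∀ z : E3, ‖z‖ ^ 2 = ∑ i, c i * ⟪u i, z⟫ ^ 2 := fun z => by
    have h : ⟪∑ i, (c i * ⟪u i, z⟫) • u i, z⟫ = ‖z‖ ^ 2 := by
      rw [hdec z, real_inner_self_eq_norm_sq]
    rw [← h]
    simp only [sum_inner, real_inner_smul_left]
    exact Finset.sum_congr rfl fun i _ => by ring
  simp only [hnorm] at hmom
  rw [integral_finsetSum _ fun i _ => hint i] at hmom
  simp only [integral_const_mul] at hmom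
  obtain ⟨i, -, hi⟩ : ∃ i ∈ Finset.univ,
      c i * (4 * Real.pi * R ^ 5 / 15) ≤ c i * ∫ z in K, ⟪u i, z⟫ ^ 2 ∧ 0 < c i := by
    by_contra hne
    push Not at hne
    have hlt : ∑ i, c i * ∫ z in K, ⟪u i, z⟫ ^ 2 < ∑ i, c i * (4 * Real.pi * R ^ 5 / 15) := by
      refine Finset.sum_lt_sum (fun i hi => ?_) ?_
      · by_contra h
        push Not at h
        have := hne i hi h.le
        have h0 : c i = 0 := le_antisymm this (hc0 i)
        simp [h0] at h
      · obtain ⟨i, hi, hci⟩ := Finset.exists_lt_of_sum_lt (s := Finset.univ) (f := fun _ => (0:ℝ))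
          (g := c) (by simp [hcsum])
        refine ⟨i, hi, ?_⟩
        by_contra h
        push Not at h
        linarith [hne i hi h]
    rw [← Finset.sum_mul, hcsum] at hlt
    linarith
  have hi' := le_of_mul_le_mul_left hi.1 hi.2
  refine ⟨b i, hbK i, ?_, ?_⟩
  · exact hJ.ball (mem_closedBall_zero_iff.2 ((b i).orthonormal.1 0).le)
  obtain ⟨h1, h2, h3, hvol, hT, hG⟩ := profile_data hJ (hbK i)
  rw [← hb i, hT] at hi'
  set M := ∫ t in (0:ℝ)..1, profile K (b i) t ^ 2 with hM
  have hMR : 3 / 2 * M = 3 * V / (4 * Real.pi) := by rw [hV, hvol]; field_simp; ring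
  have hmain := hS _ h1 h2 h3 ?_
  · rw [hG, mul_pow, mul_pow, Real.sq_sqrt Real.pi_nonneg, hV, hvol]
    have := mul_le_mul_of_nonneg_left hmain Real.pi_nonneg
    linarith
  · rw [← hM, hMR, ← hR2]
    have e : R ^ 5 = R ^ 2 * (3 / 2 * M) := by rw [hMR, ← hR3]; ring
    rw [e] at hi'
    refine le_of_mul_le_mul_left ?_ (show 0 < 2 * Real.pi by positivity)
    linarith

end Vale.Agent.P237
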