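import Mathlib
import Vale.Agent.P084.Contacts
import Vale.Agent.P237.Contact.Main
import Vale.Agent.P237.Defs

/-!
John position of a symmetric convex body in coordinate space.
-/

namespace Vale.Agent.P237

open MeasureTheory Set Metric Filter
open scoped RealInnerProductSpace Pointwise Topology


theorem gauge_smul_symm {X : Set V3} (hs : ∀ x ∈ X, -x ∈ X) (r : ℝ) (x : V3) :
    gauge X (r • x) = |r| * gauge X x := by
  rcases le_total 0 r with hr | hr
  · rw [gauge_smul_of_nonneg hr, abs_of_nonneg hr, smul_eq_mul]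
  · rw [show r • x = -((-r) • x) by simp, gauge_neg hs,
      gauge_smul_of_nonneg (neg_nonneg.2 hr), abs_of_nonpos hr, smul_eq_mul]

theorem gauge_le_one_iff_mem {X : Set V3} (hX : Body X) (x : V3) : gauge X x ≤ 1 ↔ x ∈ X := by
  rw [gauge_le_one_iff_mem_closure hX.1 (mem_interior_iff_mem_nhds.1 hX.2.2),
    hX.2.1.isClosed.closure_eq]

/-- Coordinate space with the norm of which a symmetric body is the unit ball. -/
def GaugeSpace {X : Set V3} (_ : Body X ∧ ∀ x ∈ X, -x ∈ X) : Type := Fin 3 → ℝ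

namespace GaugeSpace

variable {X : Set V3} {h : Body X ∧ ∀ x ∈ X, -x ∈ X}

instance : AddCommGroup (GaugeSpace h) := inferInstanceAs (AddCommGroup (Fin 3 → ℝ))

noncomputable instance : Module ℝ (GaugeSpace h) := inferInstanceAs (Module ℝ (Fin 3 → ℝ))

instance : FiniteDimensional ℝ (GaugeSpace h) :=
  inferInstanceAs (FiniteDimensional ℝ (Fin 3 → ℝ))

theorem absorbent {X : Set V3} (hX : Body X) : Absorbent ℝ X :=
  absorbent_nhds_zero (mem_interior_iff_mem_nhds.1 hX.2.2)

noncomputable instance : Norm (GaugeSpace h) := ⟨fun x => gauge X (x : V3)⟩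

noncomputable instance : NormedAddCommGroup (GaugeSpace h) :=
  AddGroupNorm.toNormedAddCommGroup
    { toFun := fun x : GaugeSpace h => gauge X (x : V3)
      map_zero' := gauge_zero
      add_le' := fun x y => gauge_add_le h.1.1 (absorbent h.1) (x : V3) (y : V3)
      neg' := fun x => gauge_neg h.2 (x : V3)
      eq_zero_of_map_eq_zero' := fun _ hx => (gauge_eq_zero (absorbent h.1)
        (NormedSpace.isVonNBounded_of_isBounded ℝ h.1.2.1.isBounded)).1 hx }

noncomputable instance : NormedSpace ℝ (GaugeSpace h) where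
  norm_smul_le r x := le_of_eq (gauge_smul_symm h.2 r x)

theorem finrank_eq : Module.finrank ℝ (GaugeSpace h) = 3 := Module.finrank_fin_fun ℝ

instance : Nontrivial (GaugeSpace h) := inferInstanceAs (Nontrivial (Fin 3 → ℝ))

theorem norm_le_one_iff (x : GaugeSpace h) : ‖x‖ ≤ 1 ↔ (x : V3) ∈ X :=
  gauge_le_one_iff_mem h.1 x

end GaugeSpace

/-- Every symmetric body has a linear image in John position. -/
theorem exists_johnPosition {X : Set V3} (hX : Body X) (hs : ∀ x ∈ X, -x ∈ X) :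
    ∃ A : E3 ≃ₗ[ℝ] V3, InJohnPosition (A ⁻¹' X) := by
  set h : Body X ∧ ∀ x ∈ X, -x ∈ X := ⟨hX, hs⟩
  obtain ⟨D⟩ := Vale.Agent.P084.exists_contactData (GaugeSpace h) GaugeSpace.finrank_eq
  set A : E3 ≃ₗ[ℝ] V3 := D.coord.toLinearEquiv with hA
  have hmem : ∀ v, v ∈ A ⁻¹' X ↔ ‖D.coord v‖ ≤ 1 := fun v =>
    (GaugeSpace.norm_le_one_iff (D.coord v)).symm
  refine ⟨A, ⟨?_, hX.1.linear_preimage A.toLinearMap, fun x hx => ?_, fun v hv => ?_, ?_⟩⟩
  · have : (A : E3 → V3) ⁻¹' X = A.symm '' X := (LinearEquiv.image_symm_eq_preimage A X).symm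
    rw [this]
    exact hX.2.1.image (LinearMap.continuous_of_finiteDimensional A.symm.toLinearMap)
  · show A (-x) ∈ X
    rw [map_neg]
    exact hs _ hx
  · exact (hmem v).2 ((D.norm_le v).trans (mem_closedBall_zero_iff.1 hv))
  · exact ⟨D.m, D.weight, D.vec, D.weight_nonneg, by exact_mod_cast D.weight_sum, D.vec_norm,
      fun i x hx => (D.vec_le i x).trans ((hmem x).1 hx), D.decomp⟩

/-- A body in John position lies in the ball of radius `√3`. -/
theorem InJohnPosition.norm_le {K : Set E3} (hJ : InJohnPosition K) {x : E3} (hx : x ∈ K) :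
    ‖x‖ ≤ Real.sqrt 3 := by
  obtain ⟨m, c, u, hc0, hcsum, -, huK, hdec⟩ := hJ.contacts
  refine Real.le_sqrt_of_sq_le ?_
  have h : ⟪∑ i, (c i * ⟪u i, x⟫) • u i, x⟫ = ‖x‖ ^ 2 := by
    rw [hdec x, real_inner_self_eq_norm_sq]
  rw [← h, ← hcsum]
  simp only [sum_inner, real_inner_smul_left]
  refine Finset.sum_le_sum fun i _ => ?_
  rw [mul_assoc, ← sq]
  exact mul_le_of_le_one_right (hc0 i) ((sq_le_one_iff_abs_le_one _).2 (huK i x hx))

/-- Coordinates in an orthonormal basis as a linear equivalence. -/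
noncomputable def coordsEquiv (b : OrthonormalBasis (Fin 3) ℝ E3) : V3 ≃ₗ[ℝ] E3 :=
  (WithLp.linearEquiv 2 ℝ V3).symm.trans b.repr.symm.toLinearEquiv

theorem coordsEquiv_apply (b : OrthonormalBasis (Fin 3) ℝ E3) (x : V3) :
    coordsEquiv b x = coords b x := rfl

/-- John position, a contact direction with a flat enough profile, given the profile inequality. -/
theorem exists_contact_of_scalar (hS : ScalarLemma) {X : Set V3} (hX : Body X)
    (hs : ∀ x ∈ X, -x ∈ X) :
    ∃ T : V3 ≃ₗ[ℝ] V3,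
      (∀ x : V3, ∑ i, x i ^ 2 ≤ 1 → x ∈ T '' X) ∧
      (∀ x ∈ T '' X, ∀ i, |x i| ≤ Real.sqrt 3) ∧
      ∃ h : ℝ, 0 < h ∧ (∀ x ∈ T '' X, x 0 ≤ h) ∧
        3 * Real.pi ^ 2 / 16 * volume.real (T '' X) * h ≤ sliceG (T '' X) ^ 2 := by
  obtain ⟨A, hJ⟩ := exists_johnPosition hX hs
  obtain ⟨b, hb, -, hG⟩ := exists_contact_slice hS hJ
  refine ⟨A.symm.trans (coordsEquiv b).symm, ?_⟩
  have himg : (A.symm.trans (coordsEquiv b).symm) '' X = coords b ⁻¹' (A ⁻¹' X) := by
    rw [LinearEquiv.image_eq_preimage_symm]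
    rfl
  rw [himg]
  refine ⟨fun x hx => hJ.ball ?_, fun x hx i => ?_, 1, one_pos, fun x hx => ?_, ?_⟩
  · rw [mem_closedBall_zero_iff, ← sq_le_one_iff₀ (norm_nonneg _), norm_coords_sq]
    exact hx
  · rw [← repr_coords b x i]
    refine (abs_real_inner_le_norm _ _).trans ?_
    rw [b.orthonormal.1, one_mul]
    exact hJ.norm_le hx
  · rw [← repr_coords b x 0]
    exact (le_abs_self _).trans (hb _ hx)
  · rw [mul_one, measureReal_def,
      (measurePreserving_coords b).measure_preimage_emb (measurableEmbedding_coords b)]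
    exact hG

end Vale.Agent.P237
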